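import Vale.Agent.P237.Petty.Cor.Mid50.Poly

/-!
# P237: constants of the cell from `10 / (p + 2)` to `21 / 50`, middle orders
-/

namespace Vale.Agent.P237.Petty.Cor.Mid50.Cell2

/-- The piece on `[0, 1 / 5]`. -/
def piece1 : Piece :=
  ⟨(0), (1 / 5), (1 / 49), (9999 / 10000), (5003 / 10000), (10001 / 10000),
    (1251 / 2500), (667 / 400), (52867 / 10000), (0), (19271 / 10000), true⟩

/-- The piece on `[1 / 5, 2 / 5]`. -/
def piece2 : Piece :=
  ⟨(1 / 5), (2 / 5), (1 / 49), (9999 / 10000), (5013 / 10000), (10001 / 10000),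
    (2507 / 5000), (8841 / 5000), (2643 / 1250), (0), (19271 / 10000), true⟩

/-- The piece on `[2 / 5, 67 / 100]`. -/
def piece3 : Piece :=
  ⟨(2 / 5), (67 / 100), (1 / 49), (9999 / 10000), (63 / 125), (10001 / 10000),
    (5041 / 10000), (1026 / 625), (5759 / 5000), (2 / 5), (8329 / 5000), true⟩

/-- The piece on `[67 / 100, 93 / 100]`. -/
def piece4 : Piece :=
  ⟨(67 / 100), (93 / 100), (1 / 49), (9999 / 10000), (1271 / 2500), (1),
    (1017 / 2000), (1114 / 625), (417 / 500), (2 / 5), (8329 / 5000), true⟩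

/-- The piece on `[93 / 100, 6 / 5]`. -/
def piece5 : Piece :=
  ⟨(93 / 100), (6 / 5), (1 / 49), (4999 / 5000), (2573 / 5000), (1),
    (1287 / 2500), (9681 / 5000), (3293 / 5000), (2 / 5), (8329 / 5000), true⟩

/-- The piece on `[6 / 5, 29 / 20]`. -/
def piece6 : Piece :=
  ⟨(6 / 5), (29 / 20), (1 / 49), (2499 / 2500), (653 / 1250), (4999 / 5000),
    (209 / 400), (10487 / 5000), (5473 / 10000), (2 / 5), (8329 / 5000), true⟩

/-- The piece on `[29 / 20, 17 / 10]`. -/
def piece7 : Piece :=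
  ⟨(29 / 20), (17 / 10), (1 / 49), (9993 / 10000), (5317 / 10000), (2499 / 2500),
    (5319 / 10000), (113 / 50), (589 / 1250), (2 / 5), (8329 / 5000), true⟩

/-- The piece on `[17 / 10, 19 / 10]`. -/
def piece8 : Piece :=
  ⟨(17 / 10), (19 / 10), (1 / 49), (9989 / 10000), (5413 / 10000), (1249 / 1250),
    (677 / 1250), (24117 / 10000), (4189 / 10000), (2 / 5), (8329 / 5000), true⟩

/-- The piece on `[19 / 10, 201 / 100]`. -/
def piece9 : Piece :=
  ⟨(19 / 10), (201 / 100), (1 / 49), (1997 / 2000), (5483 / 10000), (2497 / 2500),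
    (2743 / 5000), (5037 / 2000), (973 / 2500), (2 / 5), (8329 / 5000), true⟩

/-- The piece on `[201 / 100, 51 / 20]`. -/
def piece10 : Piece :=
  ⟨(201 / 100), (51 / 20), (1 / 49), (4983 / 5000), (5731 / 10000), (9977 / 10000),
    (5741 / 10000), (27511 / 10000), (1691 / 5000), (2 / 5), (8329 / 5000), false⟩

/-- The piece on `[51 / 20, 33 / 10]`. -/
def piece11 : Piece :=
  ⟨(51 / 20), (33 / 10), (1 / 49), (4949 / 5000), (1579 / 2500), (9929 / 10000),
    (127 / 200), (6453 / 2000), (2687 / 10000), (2 / 5), (8329 / 5000), false⟩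

/-- The piece on `[33 / 10, 4]`. -/
def piece12 : Piece :=
  ⟨(33 / 10), (4), (1 / 49), (9729 / 10000), (7241 / 10000), (9793 / 10000),
    (733 / 1000), (2361 / 625), (2183 / 10000), (2 / 5), (8329 / 5000), false⟩

/-- The piece on `[4, 23 / 5]`. -/
def piece13 : Piece :=
  ⟨(4), (23 / 5), (1 / 49), (2351 / 2500), (2123 / 2500), (9513 / 10000),
    (8693 / 10000), (2678 / 625), (1867 / 10000), (2 / 5), (8329 / 5000), false⟩

/-- The piece on `[23 / 5, 5]`. -/
def piece14 : Piece :=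
  ⟨(23 / 5), (5), (1 / 49), (4479 / 5000), (2459 / 2500), (1137 / 1250),
    (10179 / 10000), (5849 / 1250), (21 / 125), (2 / 5), (8329 / 5000), false⟩

/-- The piece on `[5, 267 / 50]`. -/
def piece15 : Piece :=
  ⟨(5), (267 / 50), (1 / 49), (4197 / 5000), (2819 / 2500), (8559 / 10000),
    (11871 / 10000), (12433 / 2500), (391 / 2500), (2 / 5), (8329 / 5000), false⟩

/-- The piece on `[267 / 50, 111 / 20]`. -/
def piece16 : Piece :=
  ⟨(267 / 50), (111 / 20), (39 / 2000), (803 / 1000), (12119 / 10000), (8167 / 10000),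
    (51 / 40), (10383 / 2000), (93 / 625), (2 / 5), (8329 / 5000), false⟩

/-- The piece on `[111 / 20, 289 / 50]`. -/
def piece17 : Piece :=
  ⟨(111 / 20), (289 / 50), (9 / 500), (7847 / 10000), (3131 / 2500), (3979 / 5000),
    (6553 / 5000), (53677 / 10000), (179 / 1250), (2 / 5), (8329 / 5000), false⟩

/-- The piece on `[289 / 50, 601 / 100]`. -/
def piece18 : Piece :=
  ⟨(289 / 50), (601 / 100), (33 / 2000), (959 / 1250), (12901 / 10000), (3877 / 5000),
    (3347 / 2500), (55551 / 10000), (1377 / 10000), (2 / 5), (8329 / 5000), false⟩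

/-- The piece on `[601 / 100, 25 / 4]`. -/
def piece19 : Piece :=
  ⟨(601 / 100), (25 / 4), (61 / 4000), (7427 / 10000), (1677 / 1250), (3743 / 5000),
    (3459 / 2500), (57431 / 10000), (663 / 5000), (2 / 5), (8329 / 5000), false⟩

/-- The piece on `[25 / 4, 13 / 2]`. -/
def piece20 : Piece :=
  ⟨(25 / 4), (13 / 2), (57 / 4000), (883 / 1250), (3539 / 2500), (7101 / 10000),
    (1817 / 1250), (3714 / 625), (319 / 2500), (2 / 5), (8329 / 5000), false⟩

/-- The piece on `[13 / 2, 169 / 25]`. -/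
def piece21 : Piece :=
  ⟨(13 / 2), (169 / 25), (53 / 4000), (416 / 625), (3739 / 2500), (267 / 400),
    (15271 / 10000), (30747 / 5000), (307 / 2500), (2 / 5), (8329 / 5000), false⟩

/-- The piece on `[169 / 25, 703 / 100]`. -/
def piece22 : Piece :=
  ⟨(169 / 25), (703 / 100), (49 / 4000), (1241 / 2000), (3953 / 2500), (621 / 1000),
    (8019 / 5000), (63639 / 10000), (591 / 5000), (2 / 5), (8329 / 5000), false⟩

/-- The piece on `[703 / 100, 731 / 100]`. -/
def piece23 : Piece :=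
  ⟨(703 / 100), (731 / 100), (9 / 800), (5713 / 10000), (3343 / 2000), (357 / 625),
    (16839 / 10000), (65909 / 10000), (1137 / 10000), (2 / 5), (8329 / 5000), false⟩

/-- The piece on `[731 / 100, 147 / 20]`. -/
def piece24 : Piece :=
  ⟨(731 / 100), (147 / 20), (21 / 2000), (5603 / 10000), (8457 / 5000), (5603 / 10000),
    (8461 / 5000), (16799 / 2500), (1113 / 10000), (2 / 5), (8329 / 5000), false⟩

/-- The constants. -/
def data : Data where
  mlo := 49
  mhi := 98
  hk := (12661 / 10000)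
  g := (29 / 40)
  n0 := (271 / 200)
  n1 := (183 / 100)
  g1 := (53 / 25)
  a := (769 / 1000)
  l0 := (-321 / 100)
  l1 := (528 / 125)
  phi := (17 / 20)
  v1 := (51 / 50)
  z2 := (11 / 20)
  ev := (761 / 500)
  pieces := [piece1, piece2, piece3, piece4, piece5, piece6, piece7, piece8, piece9, piece10,
    piece11, piece12, piece13, piece14, piece15, piece16, piece17, piece18, piece19, piece20,
    piece21, piece22, piece23, piece24]
  terms := [⟨0, 0, (1071 / 500)⟩, ⟨1, 0, (-2219 / 500)⟩, ⟨2, 0, (319 / 125)⟩, ⟨3, 0, (4 / 125)⟩,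
    ⟨4, 0, (-13 / 1000)⟩, ⟨5, 0, (51 / 50000)⟩, ⟨2, 1, (3259 / 1000)⟩, ⟨3, 2, (-2321 / 1000)⟩,
    ⟨4, 3, (1279 / 1000)⟩]

end Vale.Agent.P237.Petty.Cor.Mid50.Cell2
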